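import Vale.Agent.P257.H545.VanP
import Vale.Agent.P257.H545.InfP
import Vale.Agent.P257.H314.Stab
import Vale.Agent.P257.H314.Assemble
import Vale.Agent.P257.H327.Enum2

/-!
# P261: the tower of Smith-Toda complexes up to `V(3)` at the prime `7`

At `p = 7` the groups which obstruct `v_1`, `v_2`, `v_3` and the products on `V(0)`, `V(1)`, `V(2)`
vanish, because there are no monomials in their degrees.

* `liftVan_seven`, `prodVan_seven`;
* `exists_V3_seven` : `V(3)` and its tower exist at `p = 7`.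
-/

open CategoryTheory MonoidalCategory Limits Pretriangulated

set_option linter.unusedSectionVars false

universe v u

namespace Vale.Agent.P261.H338

open Vale.Agent.P251 Vale.Agent.P251.T Vale.Agent.P251.F Vale.Agent.P257.H314
  Vale.Agent.P257.H545 Vale.Agent.P257.H712 Vale.Agent.P257.H93
open Vale.Agent.P251.I (MUData)
open Vale.Agent.P251.S hiding IC
open Vale.Agent.P257.H327 (Mon)

section num

/-- no monomial in the degree of the obstruction to `v_3` -/
theorem no_mon_lift (k h : ℕ) (hk : 1 ≤ k) (hh : 1 ≤ h) (hh3 : h ≤ 3) (x : Mon)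
    (hs : x.s = 2 * (7 - 1) * k + 1) (hW : x.W 7 = Wn 7 h + k) : False := by
  have hl : (7 : ℕ) * x.s ≤ 2 * x.W 7 + (7 - 2) := Mon.line (by norm_num) x
  have h1 : Wn 7 1 = 1 := by simp [Wn]
  have h2 : Wn 7 2 = 8 := by simp [Wn, Finset.sum_range_succ]
  have h3 : Wn 7 3 = 57 := by simp [Wn, Finset.sum_range_succ]
  obtain rfl | rfl | rfl : h = 1 ∨ h = 2 ∨ h = 3 := by omega
  · rw [h1] at hW
    omega
  · rw [h2] at hW
    omega
  · rw [h3] at hW
    obtain rfl : k = 1 := by omega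
    have hW3 : x.W 7 < 7 ^ 3 := by rw [hW]; norm_num
    have es := Mon.s_eq3 (p := 7) (by norm_num) hW3
    have eW := Mon.W_eq3 (p := 7) (by norm_num) hW3
    rw [hs] at es
    rw [hW] at eW
    push_cast at es eW
    have e1 := x.e_nonneg (0, 0)
    have e2 := x.e_nonneg (0, 1)
    have e3 := x.e_nonneg (0, 2)
    have e4 := x.e_nonneg (1, 0)
    have e5 := x.e_nonneg (1, 1)
    have e6 := x.e_nonneg (2, 0)
    have f1 := x.e_le_one (0, 0)
    have f2 := x.e_le_one (0, 1)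
    have f3 := x.e_le_one (0, 2)
    have f4 := x.e_le_one (1, 0)
    have f5 := x.e_le_one (1, 1)
    have f6 := x.e_le_one (2, 0)
    have g1 := x.m_nonneg (0, 0)
    have g2 := x.m_nonneg (0, 1)
    have g3 := x.m_nonneg (1, 0)
    have z1 : x.e (2, 0) = 0 := by omega
    have z2 : x.e (1, 1) = 0 := by omega
    have z3 : x.e (0, 2) = 0 := by omega
    have z4 : x.m (0, 1) = 0 := by omega
    have z5 : x.m (1, 0) = 0 := by omega
    have z6 : x.m (0, 0) = 5 ∨ x.m (0, 0) = 6 := by omega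
    rcases z6 with z6 | z6 <;> omega

end num

variable {p : ℕ} [Fact p.Prime]

theorem van_iff' (s : ℕ) (w : ℤ) : (cmpP (infCmp p)).Van s w ↔ VanP p s w := by
  cases s <;> rfl

/-- `LiftVan` at `p = 7`. -/
theorem liftVan_seven (hp : p = 7) {h : ℕ} (hh : 1 ≤ h) (hh3 : h ≤ 3) : LiftVan p h := by
  refine liftVan_of_stab hh fun k hk => (cmpP (infCmp p)).stabVan_of_van ?_
  have e : (Wn p h : ℤ) + k = ((Wn p h + k : ℕ) : ℤ) := by push_cast; rfl
  rw [e, van_iff']
  refine boundP _ _ fun x hxs hxW => ?_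
  subst hp
  exact no_mon_lift k h hk hh hh3 x hxs hxW

/-- `ProdVan` at `p = 7`. -/
theorem prodVan_seven (hp : p = 7) {h : ℕ} (hh : 1 ≤ h) (hh3 : h ≤ 3) : ProdVan p h := by
  refine prodVan_of_stab hh (by omega) (by omega) fun A B hA hB hA' hB' k hk s hs =>
    (cmpP (infCmp p)).stabVan_of_van ?_
  have e : ∑ a ∈ A, (Wn p a : ℤ) + ∑ b ∈ B, (Wn p b : ℤ) + k =
      ((∑ a ∈ A, Wn p a + ∑ b ∈ B, Wn p b + k : ℕ) : ℤ) := by push_cast; rfl
  rw [e, van_iff']
  refine boundP _ _ fun x hxs hxW => ?_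
  subst hp
  have hl : (7 : ℕ) * x.s ≤ 2 * x.W 7 + (7 - 2) := Mon.line (by norm_num) x
  have key : ∀ A : Finset ℕ, A ⊆ Finset.range h → ∑ a ∈ A, Wn 7 a ≤ 9 ∧ A.card ≤ 3 := by
    intro A hA
    have hA3 : A ⊆ Finset.range 3 := hA.trans (Finset.range_subset_range.2 hh3)
    refine ⟨?_, by simpa using Finset.card_le_card hA3⟩
    refine (Finset.sum_le_sum_of_subset hA3).trans ?_
    simp [Wn, Finset.sum_range_succ]
  obtain ⟨a1, a2⟩ := key A hA
  obtain ⟨b1, b2⟩ := key B hB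
  rw [hxW, hxs] at hl
  omega

variable {T : Type u} [Category.{v} T] [Preadditive T] [HasZeroObject T]
    [HasShift T ℤ] [∀ n : ℤ, (shiftFunctor T n).Additive] [Pretriangulated T]
    [MonoidalCategory T] [SymmetricCategory T] [TensorTriangulated T] [HasCoproducts.{0} T]
    [MonoidalClosed T] [IsTriangulated T] [HasProducts.{0} T] [StableCat T]
    {D : MUData T} {C₀ : T} {iC₀ : 𝟙_ T ⟶ C₀}

/-- **`V(3)` exists at `p = 7`**, with its tower. -/
theorem exists_V3_seven (hp : p = 7) {δ : C₀ ⟶ (𝟙_ T)⟦(1 : ℤ)⟧}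
    (hC : Triangle.mk ((p : ℤ) • 𝟙 (𝟙_ T)) iC₀ δ ∈ distTriang T) :
    ∃ (V : T) (i : 𝟙_ T ⟶ V), IsST D p iC₀ 4 i :=
  exists_V3 (by omega) hC (fun _ h1 h3 => prodVan_seven hp h1 h3)
    fun _ h1 h3 => liftVan_seven hp h1 h3

end Vale.Agent.P261.H338
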